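import Vale.Agent.P057k.Core

/-! P057: optimisation of the parameters. -/

namespace Vale.Agent.P057

open Finset Filter Real

/-- Sets with property `Fr` exist with density `exp (-C (log N) ^ (1 / t))`. -/
def Good (Fr : Finset ℤ → Prop) (t : ℕ) (κ : ℝ) : Prop :=
  ∀ C : ℝ, t * κ ^ (1 / t : ℝ) < C → ∀ᶠ N : ℕ in atTop, ∃ A ⊆ Ico (0 : ℤ) N, Fr A ∧
    N * exp (-C * log N ^ (1 / t : ℝ)) ≤ A.card

theorem good_base {Fr : Finset ℤ → Prop} (h : Fr {0}) : Good Fr 1 1 := by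
  intro C hC
  filter_upwards [eventually_ge_atTop 1] with N hN
  have h1 : (1 : ℝ) ≤ N := by exact_mod_cast hN
  refine ⟨{0}, by simpa using Nat.lt_of_succ_le hN, h, ?_⟩
  simp only [Nat.cast_one, div_one, rpow_one, mul_one, card_singleton] at hC ⊢
  have h2 := log_nonneg h1
  calc (N : ℝ) * exp (-C * log N) = exp (log N + -C * log N) := by
        rw [exp_add, exp_log (by linarith)]
    _ ≤ 1 := exp_le_one_iff.2 (by nlinarith)

theorem ev_log {γ δ : ℝ} (hγ : 0 < γ) (hδ : 0 < δ) :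
    ∀ᶠ x : ℝ in atTop, log 32 + 5 * log (γ * x + 3) ≤ δ * x := by
  have h1 : Tendsto (fun x : ℝ => γ * x + 3) atTop atTop :=
    tendsto_atTop_add_const_right _ _ (tendsto_id.const_mul_atTop hγ)
  have h2 := h1.eventually (isLittleO_log_id_atTop.bound (c := δ / (20 * γ)) (by positivity))
  filter_upwards [h2, eventually_ge_atTop (3 / γ), eventually_ge_atTop (2 * log 32 / δ)]
    with x hx h3 h4
  rw [div_le_iff₀ hγ] at h3
  rw [div_le_iff₀ hδ] at h4
  simp only [id, norm_eq_abs] at hx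
  rw [abs_of_pos (a := γ * x + 3) (by nlinarith)] at hx
  have h5 : δ / (20 * γ) * (γ * x + 3) ≤ δ / (20 * γ) * (2 * γ * x) :=
    mul_le_mul_of_nonneg_left (by linarith) (by positivity)
  have h6 : δ / (20 * γ) * (2 * γ * x) = δ * x / 10 := by field_simp; ring
  have h7 := le_abs_self (log (γ * x + 3))
  linarith

theorem log_rng_le {d Q : ℕ} (hd : 0 < d) (hQ : 0 < Q) {y z : ℝ} (h1 : (Q : ℝ) ≤ 2 * exp y)
    (h2 : (d : ℝ) + 2 ≤ z) : log (rng d Q) ≤ log 32 + 5 * log z + 2 * y := by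
  have hz : 0 < z := lt_of_lt_of_le (by positivity) h2
  have h3 : (rng d Q : ℝ) ≤ 32 * z ^ 5 * exp (2 * y) := by
    have h4 : (d : ℝ) ≤ z := by linarith
    calc (rng d Q : ℝ) = 2 * d * (Q * (2 * (d + 2) ^ 2)) ^ 2 := by simp [rng]
      _ ≤ 2 * z * (2 * exp y * (2 * z ^ 2)) ^ 2 := by gcongr
      _ = _ := by rw [two_mul y, exp_add]; ring
  have h4 : (0 : ℝ) < rng d Q := by
    have : 0 < rng d Q := by unfold rng; positivity
    exact_mod_cast this
  refine (log_le_log h4 h3).trans (le_of_eq ?_)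
  rw [log_mul (by positivity) (by positivity), log_mul (by positivity) (by positivity), log_exp,
    log_pow]
  norm_num

theorem le_rng {d : ℕ} (hd : 0 < d) (Q : ℕ) : Q ≤ rng d Q := by
  unfold rng
  calc Q ≤ Q ^ 2 := Nat.le_self_pow two_ne_zero Q
    _ ≤ (Q * (2 * (d + 2) ^ 2)) ^ 2 :=
      Nat.pow_le_pow_left (Nat.le_mul_of_pos_right _ (by positivity)) 2
    _ ≤ _ := Nat.le_mul_of_pos_left _ (by positivity)

theorem params {t N K : ℕ} (ht : 0 < t) {γ θ x : ℝ} (hγ0 : 0 < γ) (hθ1 : 1 < θ) (hN : 1 ≤ N)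
    (hxL : x ^ (t + 1) = log N) (e1 : log 32 + 5 * log (γ * x + 3) ≤ (θ - 1) * (2 / γ) * x)
    (e2 : 1 ≤ x) (e3 : K * (γ + 1) ≤ x) : ∃ d Q : ℕ, 0 < d ∧ 0 < Q ∧ K ≤ Q ∧ N ≤ Q ^ d ∧
      (d : ℝ) ≤ γ * x + 1 ∧ log (rng d Q) ≤ (θ * x) ^ t * (2 / γ) := by
  have hN' : (1 : ℝ) ≤ N := by exact_mod_cast hN
  have hL := log_nonneg hN'
  have hx0 : 0 < x := by linarith
  set d := ⌈γ * x⌉₊ with hd
  have hd0 : 0 < d := Nat.ceil_pos.2 (by positivity)
  have hd0' : (0 : ℝ) < d := by exact_mod_cast hd0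
  have hd1 : γ * x ≤ d := Nat.le_ceil _
  have hd2 : (d : ℝ) ≤ γ * x + 1 := (Nat.ceil_lt_add_one (by positivity)).le
  clear_value d
  set y := log N / d with hy
  have hy0 : 0 ≤ y := by positivity
  have hxt : x ≤ x ^ t := le_self_pow₀ e2 ht.ne'
  have hy1 : y ≤ x ^ t / γ := by
    rw [hy, div_le_div_iff₀ hd0' hγ0, ← hxL, pow_succ, mul_assoc]
    exact mul_le_mul_of_nonneg_left (by linarith) (by positivity)
  have hy2 : (K : ℝ) ≤ y := by
    rw [hy, le_div_iff₀ hd0', ← hxL, pow_succ]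
    calc (K : ℝ) * d ≤ K * ((γ + 1) * x) := by gcongr; linarith
      _ = K * (γ + 1) * x := by ring
      _ ≤ x ^ t * x := by gcongr; linarith
  have hy3 : (N : ℝ) = exp y ^ d := by
    rw [← exp_nat_mul, hy, mul_div_cancel₀ _ hd0'.ne', exp_log (by linarith)]
  clear_value y
  set Q := ⌈exp y⌉₊ with hQ
  have hQ1 : exp y ≤ Q := Nat.le_ceil _
  have hQ2 : (Q : ℝ) ≤ 2 * exp y := by
    have := (Nat.ceil_lt_add_one (exp_pos y).le).le
    have := one_le_exp hy0
    linarith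
  have hQ0 : 0 < Q := Nat.ceil_pos.2 (exp_pos _)
  clear_value Q
  refine ⟨d, Q, hd0, hQ0, ?_, ?_, hd2, ?_⟩
  · have := add_one_le_exp y
    exact_mod_cast (by linarith : (K : ℝ) ≤ Q)
  · have : (N : ℝ) ≤ Q ^ d := by
      rw [hy3]
      gcongr
    exact_mod_cast this
  · have f1 := log_rng_le hd0 hQ0 hQ2 (z := γ * x + 3) (by linarith)
    have f2 : θ ≤ θ ^ t := le_self_pow₀ hθ1.le ht.ne'
    have f3 : (θ - 1) * (2 / γ) * x ≤ (θ - 1) * (2 / γ) * x ^ t :=
      mul_le_mul_of_nonneg_left hxt (mul_pos (by linarith) (by positivity)).le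
    have f4 : θ * (x ^ t * (2 / γ)) ≤ θ ^ t * (x ^ t * (2 / γ)) := by gcongr
    have f5 : x ^ t / γ * 2 = x ^ t * (2 / γ) := by ring
    have f6 : (θ - 1) * (2 / γ) * x ^ t = θ * (x ^ t * (2 / γ)) - x ^ t * (2 / γ) := by ring
    rw [mul_pow, mul_assoc]
    linarith

theorem good_step {μ κ : ℝ} {t : ℕ} {Fr' Fr : Finset ℤ → Prop} (h0 : 0 < μ) (h1 : μ < 1)
    (hκ : 0 < κ) (ht : 0 < t) (hS : Step μ Fr' Fr) (hG : Good Fr' t κ) :
    Good Fr (t + 1) (2 * log μ⁻¹ * κ) := by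
  intro C hC
  set l := log μ⁻¹ with hl
  have hl0 : 0 < l := log_pos (one_lt_inv₀ h0 |>.2 h1)
  set w := (2 * l * κ) ^ (1 / ((t + 1 : ℕ) : ℝ)) with hw
  have hw0 : 0 < w := by positivity
  have hwp : w ^ (t + 1) = 2 * l * κ := by
    rw [hw, one_div, rpow_inv_natCast_pow (by positivity) (by omega)]
  have ht' : (0 : ℝ) < t := by exact_mod_cast ht
  push_cast at hC
  obtain ⟨ρ, hρ1, hρ2⟩ := exists_between ((one_lt_div (by positivity)).2 hC)
  rw [lt_div_iff₀ (by positivity)] at hρ2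
  set θ := √ρ with hθ
  have hθ1 : 1 < θ := by rw [hθ, lt_sqrt zero_le_one]; simpa using hρ1
  have hθ2 : θ * θ = ρ := mul_self_sqrt (by linarith)
  set γ := w / l with hγ
  have hγ0 : 0 < γ := by positivity
  have hν : exp (-(θ * l)) < μ := by
    calc exp (-(θ * l)) < exp (-l) := exp_lt_exp.2 (by nlinarith)
      _ = μ := by rw [hl, log_inv, neg_neg, exp_log h0]
  obtain ⟨Q₀, hQ₀⟩ := hS _ (exp_pos _) hν
  have hκt : 0 < κ ^ (1 / t : ℝ) := by positivity
  obtain ⟨M₀, hM₀⟩ := eventually_atTop.1 (hG (θ * (t * κ ^ (1 / t : ℝ)))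
    (lt_mul_of_one_lt_left (by positivity) hθ1))
  have hkey : κ ^ (1 / t : ℝ) * (2 / γ) ^ (1 / t : ℝ) = w := by
    rw [← mul_rpow hκ.le (by positivity)]
    have : κ * (2 / γ) = w ^ t := by
      rw [hγ, eq_comm, ← mul_right_inj' hw0.ne', ← pow_succ', hwp]
      field_simp
    rw [this, one_div, pow_rpow_inv_natCast hw0.le ht.ne']
  have htend : Tendsto (fun N : ℕ => log N ^ (1 / ((t + 1 : ℕ) : ℝ))) atTop atTop :=
    (tendsto_rpow_atTop (by positivity)).comp (tendsto_log_atTop.comp tendsto_natCast_atTop_atTop)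
  have hδ : 0 < (θ - 1) * (2 / γ) := mul_pos (by linarith) (by positivity)
  filter_upwards [eventually_ge_atTop 1, htend.eventually (ev_log hγ0 hδ),
    htend.eventually (eventually_ge_atTop 1),
    htend.eventually (eventually_ge_atTop ((Q₀ + M₀) * (γ + 1))),
    htend.eventually (eventually_ge_atTop ((θ * l + 1) / (C - ρ * ((t + 1) * w))))]
    with N hN e1 e2 e3 e4
  have hN' : (1 : ℝ) ≤ N := by exact_mod_cast hN
  have hL := log_nonneg hN'
  set x := log N ^ (1 / ((t + 1 : ℕ) : ℝ)) with hx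
  have hxL : x ^ (t + 1) = log N := by rw [hx, one_div, rpow_inv_natCast_pow hL (by omega)]
  rw [div_le_iff₀ (by linarith)] at e4
  have hx0 : 0 < x := by linarith
  clear_value x θ γ w l
  obtain ⟨d, Q, hd0, hQ0, hQ3, hNQ, hd2, hlog⟩ := params (K := Q₀ + M₀) ht hγ0 hθ1 hN hxL e1 e2
    (by exact_mod_cast e3)
  obtain ⟨A', hA1, hA2, hA3⟩ := hM₀ (rng d Q) (le_trans (by omega) (le_rng hd0 Q))
  obtain ⟨A, hB1, hB2, hB3⟩ := hQ₀ d Q N hd0 (by omega) hNQ A' hA1 hA2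
  refine ⟨A, hB1, hB2, ?_⟩
  have hM : (1 : ℝ) ≤ rng d Q := by exact_mod_cast le_trans hQ0 (le_rng hd0 Q)
  have hpow : log (rng d Q) ^ (1 / t : ℝ) ≤ θ * x * (2 / γ) ^ (1 / t : ℝ) := by
    refine (rpow_le_rpow (log_nonneg hM) hlog (by positivity)).trans (le_of_eq ?_)
    rw [mul_rpow (by positivity) (by positivity), one_div,
      pow_rpow_inv_natCast (by positivity) ht.ne']
  have hexp : exp (-(ρ * t * w * x)) ≤
      exp (-(θ * (t * κ ^ (1 / t : ℝ))) * log (rng d Q) ^ (1 / t : ℝ)) := by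
    refine exp_le_exp.2 ?_
    rw [neg_mul, neg_le_neg_iff]
    calc θ * (t * κ ^ (1 / t : ℝ)) * log (rng d Q) ^ (1 / t : ℝ)
        ≤ θ * (t * κ ^ (1 / t : ℝ)) * (θ * x * (2 / γ) ^ (1 / t : ℝ)) := by gcongr
      _ = θ * θ * t * (κ ^ (1 / t : ℝ) * (2 / γ) ^ (1 / t : ℝ)) * x := by ring
      _ = _ := by rw [hkey, hθ2]
  have hνd : exp (-(ρ * w * x + θ * l)) ≤ exp (-(θ * l)) ^ d := by
    rw [← exp_nat_mul]
    refine exp_le_exp.2 ?_
    have f1 : l * γ = w := by rw [hγ]; field_simp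
    have f2 : θ * l * d ≤ θ * l * (γ * x + 1) := by gcongr
    have f3 : θ * (w * x) ≤ ρ * (w * x) := by gcongr; nlinarith
    have f4 : θ * l * (γ * x + 1) = θ * (w * x) + θ * l := by rw [← f1]; ring
    linarith
  have h2 : 2 * exp (-C * x) ≤ exp (-(ρ * t * w * x)) * exp (-(ρ * w * x + θ * l)) := by
    have f1 : (2 : ℝ) ≤ exp 1 := by linarith [add_one_le_exp (1 : ℝ)]
    calc 2 * exp (-C * x) ≤ exp 1 * exp (-C * x) := by gcongr
      _ ≤ _ := by
        rw [← exp_add, ← exp_add]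
        exact exp_le_exp.2 (by linarith)
  refine le_of_mul_le_mul_right (le_trans ?_ hB3) (by positivity : (0 : ℝ) < 2 * rng d Q)
  calc (N : ℝ) * exp (-C * x) * (2 * rng d Q) = N * rng d Q * (2 * exp (-C * x)) := by ring
    _ ≤ N * rng d Q * (exp (-(ρ * t * w * x)) * exp (-(ρ * w * x + θ * l))) := by gcongr
    _ = N * (rng d Q * exp (-(ρ * t * w * x))) * exp (-(ρ * w * x + θ * l)) := by ring
    _ ≤ N * A'.card * exp (-(θ * l)) ^ d := by
      gcongr
      exact le_trans (by gcongr) hA3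

theorem free_singleton (k D : ℕ) (hk : 0 < k) : Free k D {0} := fun a ha _ i hi => by
  rw [mem_singleton.1 (ha i hi), mem_singleton.1 (ha 0 hk)]

theorem good_box (k t : ℕ) : ∀ j : ℕ, 2 ^ (j + t) < k →
    Good (Free k (2 ^ j)) (t + 1) (2 ^ ((t + 1).choose 2 + t * j) * log 2 ^ t) := by
  induction t with
  | zero =>
    intro j hj
    simpa using good_base (free_singleton k _ (Nat.zero_lt_of_lt hj))
  | succ t ih =>
    intro j hj
    have h1 : 2 * 2 ^ j < k := by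
      refine lt_of_le_of_lt ?_ hj
      rw [← pow_succ']
      exact Nat.pow_le_pow_right (by omega) (by omega)
    have h2 := ih (j + 1) (by rwa [add_assoc, add_comm 1])
    rw [pow_succ' 2 j] at h2
    have h3 := good_step (by positivity) (pow_lt_one₀ (by norm_num) (by norm_num) (by positivity))
      (by have := log_pos one_lt_two; positivity) (Nat.succ_pos t)
      (step_poly h1 fun m hm => blk_box k (2 ^ j) m hm.pos) h2
    have h4 : (2 : ℝ) * log ((1 / 2) ^ 2 ^ j)⁻¹ *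
        (2 ^ ((t + 1).choose 2 + t * (j + 1)) * log 2 ^ t) =
        2 ^ ((t + 1 + 1).choose 2 + (t + 1) * j) * log 2 ^ (t + 1) := by
      rw [one_div, inv_pow, inv_inv, log_pow, Nat.choose_succ_succ' (t + 1) 1,
        Nat.choose_one_right]
      push_cast
      ring
    rwa [h4] at h3

theorem good_main {k : ℕ} (hk : 4 ≤ k) : Good (Free k 1) (Nat.clog 2 k)
    (2 ^ ((Nat.clog 2 k).choose 2) * log (9 / 5) * log 2 ^ (Nat.clog 2 k - 2)) := by
  have h9 : log (5 / 9 : ℝ)⁻¹ = log (9 / 5) := by norm_num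
  rcases hk.eq_or_lt with rfl | hk
  · have h1 := good_step (by norm_num) (by norm_num) one_pos one_pos step_four
      (good_base (by simp))
    have h2 : Nat.clog 2 4 = 2 := by norm_num
    rw [h9] at h1
    simpa [h2] using h1
  · have h1 : 2 < Nat.clog 2 k := (Nat.lt_clog_iff_pow_lt one_lt_two).2 hk
    obtain ⟨t, ht⟩ : ∃ t, Nat.clog 2 k = t + 2 := ⟨_, (Nat.sub_add_cancel h1.le).symm⟩
    have h2 : 2 ^ (1 + t) < k := (Nat.lt_clog_iff_pow_lt one_lt_two).1 (by omega)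
    have h3 := good_step (by norm_num) (by norm_num)
      (by have := log_pos one_lt_two; positivity) (Nat.succ_pos t)
      (step_poly (D := 1) (by omega) fun m hm => ⟨_, blk_nine hk hm, card_nine m hm.pos⟩)
      (good_box k t 1 h2)
    rw [h9] at h3
    rw [ht, Nat.add_sub_cancel, Nat.choose_succ_succ' (t + 1) 1, Nat.choose_one_right]
    have h4 : (2 : ℝ) ^ (t + 1 + (t + 1).choose (1 + 1)) * log (9 / 5) * log 2 ^ t =
        2 * log (9 / 5) * (2 ^ ((t + 1).choose 2 + t * 1) * log 2 ^ t) := by ring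
    rw [h4]
    exact h3

end Vale.Agent.P057
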