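import Vale.Agent.P057k.Poly

/-! P057: the product construction over pairwise coprime moduli. -/

namespace Vale.Agent.P057

open Finset Polynomial

theorem exists_shift {X : Type} [DecidableEq X] (T : Finset X) (F : X → ℤ) (M : ℕ) (hM : 0 < M)
    (hF : ∀ x ∈ T, 0 ≤ F x ∧ F x < M) (A : Finset ℤ) (hA : A ⊆ Ico (0 : ℤ) M) :
    ∃ r : ℤ, T.card * A.card ≤ (T.filter fun x => F x - r ∈ A).card * (2 * M) := by
  have h1 : T.card * A.card ≤
      ∑ r ∈ Ico (-(M : ℤ)) M, (T.filter fun x => F x - r ∈ A).card := by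
    rw [← card_product, ← card_sigma]
    refine card_le_card_of_injOn (fun p => ⟨F p.1 - p.2, p.1⟩) (fun p hp => ?_) ?_
    · obtain ⟨h1, h2⟩ := mem_product.1 hp
      have h3 := mem_Ico.1 (hA h2)
      have h4 := hF _ h1
      exact mem_coe.2 (mem_sigma.2 ⟨mem_Ico.2 (by dsimp only; omega),
        mem_filter.2 ⟨h1, by simpa using h2⟩⟩)
    · rintro ⟨x, a⟩ _ ⟨y, b⟩ _ h
      simp only [Sigma.mk.injEq, heq_eq_eq] at h
      obtain ⟨h1, rfl⟩ := h
      simp only [Prod.mk.injEq, true_and]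
      omega
  by_contra hc
  push Not at hc
  have h2 : ∑ r ∈ Ico (-(M : ℤ)) M, (T.filter fun x => F x - r ∈ A).card * (2 * M) <
      ∑ _r ∈ Ico (-(M : ℤ)) M, T.card * A.card :=
    sum_lt_sum_of_nonempty ⟨0, mem_Ico.2 (by omega)⟩ fun r _ => hc r
  rw [← sum_mul, sum_const, Int.card_Ico, smul_eq_mul] at h2
  have h3 : ((M : ℤ) - -(M : ℤ)).toNat = 2 * M := by omega
  rw [h3] at h2
  nlinarith

theorem exists_slice {d : ℕ} (m : Fin d → ℕ) (hm : ∀ j, 0 < m j) (T : Finset (Fin d → ℤ))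
    (hT : ∀ s ∈ T, ∀ j, 2 * |s j| < m j) (N : ℕ) :
    ∃ (b : Fin d → ℤ) (A : Finset ℤ), A ⊆ Ico (0 : ℤ) N ∧
      (∀ n ∈ A, ∃ s ∈ T, ∀ j, (m j : ℤ) ∣ s j - n - b j) ∧ N * T.card ≤ A.card * ∏ j, m j := by
  classical
  set B := Fintype.piFinset fun j => Ico (0 : ℤ) (m j)
  set A : (Fin d → ℤ) → Finset ℤ := fun b =>
    (Ico (0 : ℤ) N).filter fun n => ∃ s ∈ T, ∀ j, (m j : ℤ) ∣ s j - n - b j
  have hB : B.card = ∏ j, m j := by simp [B]
  have h1 : N * T.card ≤ ∑ b ∈ B, (A b).card := by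
    have h0 : N = (Ico (0 : ℤ) N).card := by simp
    rw [h0, ← card_product, ← card_sigma]
    refine card_le_card_of_injOn (fun p => ⟨fun j => (p.2 j - p.1) % m j, p.1⟩)
      (fun p hp => ?_) ?_
    · obtain ⟨h1, h2⟩ := mem_product.1 hp
      refine mem_coe.2 (mem_sigma.2 ⟨Fintype.mem_piFinset.2 fun j => ?_,
        mem_filter.2 ⟨h1, p.2, h2, fun j => ?_⟩⟩)
      · have h3 : (0 : ℤ) < m j := by exact_mod_cast hm j
        exact mem_Ico.2 ⟨Int.emod_nonneg _ h3.ne', Int.emod_lt_of_pos _ h3⟩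
      · exact Int.dvd_self_sub_emod
    · rintro ⟨n, s⟩ hp ⟨n', s'⟩ hp' h
      simp only [Sigma.mk.injEq, heq_eq_eq] at h
      obtain ⟨h1, rfl⟩ := h
      simp only [Prod.mk.injEq, true_and]
      funext j
      have h3 : (m j : ℤ) ∣ s j - s' j := by
        have := Int.ModEq.dvd (congrFun h1 j).symm
        simpa using this
      have h4 := hT s (mem_product.1 hp).2 j
      have h5 := hT s' (mem_product.1 hp').2 j
      have h6 : |s j - s' j| < m j := by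
        have := abs_sub (s j) (s' j)
        omega
      exact sub_eq_zero.1 (Int.eq_zero_of_abs_lt_dvd h3 h6)
  have hne : B.Nonempty := by
    rw [← card_pos, hB]; exact prod_pos fun j _ => hm j
  obtain ⟨b, -, hb⟩ : ∃ b ∈ B, N * T.card ≤ (A b).card * ∏ j, m j := by
    refine exists_le_of_sum_le hne ?_
    rw [sum_const, hB, smul_eq_mul, mul_comm (∏ j, m j), ← sum_mul]
    exact Nat.mul_le_mul_right _ h1
  exact ⟨b, A b, filter_subset _ _, fun n hn => (mem_filter.1 hn).2, hb⟩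

theorem core {d : ℕ} (m : Fin d → ℕ) (hm : ∀ j, 0 < m j) (S : Fin d → Finset ℤ)
    (hS : ∀ j, ∀ s ∈ S j, 2 * |s| < m j) (F : (Fin d → ℤ) → ℤ) (M : ℕ) (hM : 0 < M)
    (hF : ∀ s ∈ Fintype.piFinset S, 0 ≤ F s ∧ F s < M) (A' : Finset ℤ) (hA : A' ⊆ Ico (0 : ℤ) M)
    (N : ℕ) {μ : ℝ} (hμ : 0 ≤ μ) (hc : ∀ j, μ * m j ≤ (S j).card) :
    ∃ (r : ℤ) (b : Fin d → ℤ) (A : Finset ℤ), A ⊆ Ico (0 : ℤ) N ∧
      (∀ n ∈ A, ∃ s : Fin d → ℤ, (∀ j, s j ∈ S j) ∧ F s - r ∈ A' ∧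
        ∀ j, (m j : ℤ) ∣ s j - n - b j) ∧
      (N : ℝ) * A'.card * μ ^ d ≤ A.card * (2 * M) := by
  obtain ⟨r, hr⟩ := exists_shift (Fintype.piFinset S) F M hM hF A' hA
  obtain ⟨b, A, h1, h2, h3⟩ := exists_slice m hm
    ((Fintype.piFinset S).filter fun x => F x - r ∈ A')
    (fun s hs j => hS j _ (Fintype.mem_piFinset.1 (mem_filter.1 hs).1 j)) N
  refine ⟨r, b, A, h1, fun n hn => ?_, ?_⟩
  · obtain ⟨s, hs, h4⟩ := h2 n hn
    exact ⟨s, Fintype.mem_piFinset.1 (mem_filter.1 hs).1, (mem_filter.1 hs).2, h4⟩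
  · have h4 : μ ^ d * ∏ j, (m j : ℝ) ≤ (Fintype.piFinset S).card := by
      rw [Fintype.card_piFinset]
      push_cast
      have : μ ^ d = ∏ _j : Fin d, μ := by simp
      rw [this, ← prod_mul_distrib]
      exact prod_le_prod (fun j _ => by positivity) fun j _ => hc j
    have h5 : (0 : ℝ) < ∏ j, (m j : ℝ) := prod_pos fun j _ => by exact_mod_cast hm j
    have hr' : ((Fintype.piFinset S).card : ℝ) * A'.card ≤
        ((Fintype.piFinset S).filter fun x => F x - r ∈ A').card * (2 * M) := by exact_mod_cast hr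
    have h3' : (N : ℝ) * ((Fintype.piFinset S).filter fun x => F x - r ∈ A').card ≤
        A.card * ∏ j, (m j : ℝ) := by exact_mod_cast h3
    refine le_of_mul_le_mul_right ?_ h5
    calc (N : ℝ) * A'.card * μ ^ d * ∏ j, (m j : ℝ)
        = N * ((μ ^ d * ∏ j, (m j : ℝ)) * A'.card) := by ring
      _ ≤ N * (((Fintype.piFinset S).filter fun x => F x - r ∈ A').card * (2 * M)) :=
        mul_le_mul_of_nonneg_left
          ((mul_le_mul_of_nonneg_right h4 (Nat.cast_nonneg _)).trans hr') (Nat.cast_nonneg _)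
      _ = N * ((Fintype.piFinset S).filter fun x => F x - r ∈ A').card * (2 * M) := by ring
      _ ≤ (A.card * ∏ j, (m j : ℝ)) * (2 * M) := by gcongr
      _ = _ := by ring

theorem eq_of_dvd {d : ℕ} {m : Fin d → ℕ} (hc : Pairwise fun i j => (m i).Coprime (m j))
    {N : ℕ} (hN : N ≤ ∏ j, m j) {x y : ℤ} (hx : x ∈ Ico (0 : ℤ) N) (hy : y ∈ Ico (0 : ℤ) N)
    (h : ∀ j, (m j : ℤ) ∣ x - y) : x = y := by
  have h1 : ∏ j, (m j : ℤ) ∣ x - y :=
    Finset.prod_dvd_of_coprime (fun i _ j _ hij => Nat.isCoprime_iff_coprime.2 (hc hij))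
      fun j _ => h j
  have h2 : (N : ℤ) ≤ ∏ j, (m j : ℤ) := by exact_mod_cast hN
  rw [mem_Ico] at hx hy
  exact sub_eq_zero.1 (Int.eq_zero_of_abs_lt_dvd h1 (abs_lt.2 (by omega)))

theorem exists_primes (d : ℕ) : ∃ p : Fin d → ℕ, Function.Injective p ∧
    ∀ j, (p j).Prime ∧ p j ≠ 2 ∧ p j ≤ 2 * (d + 2) ^ 2 := by
  set n := (d + 2) ^ 2 with hn
  have h4 : 4 ≤ n := by rw [hn]; nlinarith [Nat.zero_le d]
  set T := (range (2 * n + 1)).filter Nat.Prime
  have h1 : n.centralBinom ≤ (2 * n) ^ T.card := by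
    rw [← Nat.prod_pow_factorization_centralBinom n,
      ← prod_filter_of_ne (p := Nat.Prime) fun p _ hp => by
        by_contra h
        exact hp (by rw [Nat.factorization_eq_zero_of_not_prime _ h, pow_zero])]
    exact prod_le_pow_card _ _ _ fun p _ => Nat.pow_factorization_choose_le (by omega)
  have h2 : d + 1 ≤ T.card := by
    by_contra hc
    have h3 : (2 * n) ^ T.card ≤ (2 * n) ^ d := Nat.pow_le_pow_right (by omega) (by omega)
    have h5 := Nat.four_pow_lt_mul_centralBinom n h4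
    have h6 : 2 * n ≤ 4 ^ (d + 2) := by
      have : d + 2 < 2 ^ (d + 2) := Nat.lt_two_pow_self
      have h7 : 2 * (d + 2) ≤ 2 ^ (d + 2) := by
        have : d + 1 < 2 ^ (d + 1) := Nat.lt_two_pow_self
        rw [pow_succ]; omega
      calc 2 * n = 2 * (d + 2) * (d + 2) := by rw [hn]; ring
        _ ≤ 2 ^ (d + 2) * 2 ^ (d + 2) := Nat.mul_le_mul h7 this.le
        _ = 4 ^ (d + 2) := (mul_pow 2 2 (d + 2)).symm
    have h7 : n * n.centralBinom ≤ (2 * n) ^ (d + 2) := calc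
      n * n.centralBinom ≤ (2 * n) * (2 * n) ^ d := Nat.mul_le_mul (by omega) (h1.trans h3)
      _ = (2 * n) ^ (d + 1) := by ring
      _ ≤ _ := Nat.pow_le_pow_right (by omega) (by omega)
    have h8 : (2 * n) ^ (d + 2) ≤ 4 ^ n := by
      calc (2 * n) ^ (d + 2) ≤ (4 ^ (d + 2)) ^ (d + 2) := Nat.pow_le_pow_left h6 _
        _ = 4 ^ n := by rw [← pow_mul, hn, sq]
    omega
  have h3 : d ≤ (T.erase 2).card := by
    have := pred_card_le_card_erase (s := T) (a := 2)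
    omega
  refine ⟨fun j => (T.erase 2).orderEmbOfCardLe h3 j,
    ((T.erase 2).orderEmbOfCardLe h3).injective, fun j => ?_⟩
  have h5 := mem_erase.1 ((T.erase 2).orderEmbOfCardLe_mem h3 j)
  have h6 := mem_filter.1 h5.2
  exact ⟨h6.2, h5.1, Nat.lt_succ_iff.1 (mem_range.1 h6.1)⟩

theorem exists_moduli (d Q : ℕ) (hQ : 0 < Q) : ∃ m : Fin d → ℕ,
    (Pairwise fun i j => (m i).Coprime (m j)) ∧
      ∀ j, Odd (m j) ∧ Q ≤ m j ∧ m j ≤ Q * (2 * (d + 2) ^ 2) := by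
  obtain ⟨p, hp, h⟩ := exists_primes d
  refine ⟨fun j => p j ^ (Nat.log (p j) Q + 1), fun i j hij => ?_, fun j => ⟨?_, ?_, ?_⟩⟩
  · exact Nat.Coprime.pow _ _ ((Nat.coprime_primes (h i).1 (h j).1).2 fun e => hij (hp e))
  · exact ((h j).1.odd_of_ne_two (h j).2.1).pow
  · exact (Nat.lt_pow_succ_log_self (h j).1.one_lt Q).le
  · rw [pow_succ]
    exact Nat.mul_le_mul (Nat.pow_log_le_self _ hQ.ne') (h j).2.2

/-- The range of the quadratic form. -/
def rng (d Q : ℕ) : ℕ := 2 * d * (Q * (2 * (d + 2) ^ 2)) ^ 2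

/-- One level of the construction, with blocks of density `μ`. -/
def Step (μ : ℝ) (Fr' Fr : Finset ℤ → Prop) : Prop :=
  ∀ ν : ℝ, 0 < ν → ν < μ → ∃ Q₀ : ℕ, ∀ d Q N : ℕ, 0 < d → Q₀ ≤ Q → N ≤ Q ^ d →
    ∀ A' ⊆ Ico (0 : ℤ) (rng d Q), Fr' A' → ∃ A ⊆ Ico (0 : ℤ) N, Fr A ∧
      (N : ℝ) * A'.card * ν ^ d ≤ A.card * (2 * rng d Q)

theorem step_gen {μ : ℝ} {Fr' Fr : Finset ℤ → Prop} (Bl : ℕ → Finset ℤ → Prop) (g : ℕ → ℤ → ℤ)
    (hB : ∀ m, Odd m → ∃ S, Bl m S ∧ μ * m - 3 ≤ S.card)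
    (hS : ∀ m S, Bl m S → ∀ s ∈ S, 2 * |s| < m)
    (hg : ∀ (m : ℕ) (s : ℤ), 2 * |s| < m → 0 ≤ g m s ∧ g m s < 2 * m ^ 2)
    (hF : ∀ (d : ℕ) (m : Fin d → ℕ) (S : Fin d → Finset ℤ) (A' A : Finset ℤ) (r : ℤ)
      (b : Fin d → ℤ), (∀ j, Odd (m j)) → (∀ j, Bl (m j) (S j)) → Fr' A' →
      (∀ x ∈ A, ∀ y ∈ A, (∀ j, (m j : ℤ) ∣ x - y) → x = y) →
      (∀ n ∈ A, ∃ s : Fin d → ℤ, (∀ j, s j ∈ S j) ∧ ∑ j, g (m j) (s j) - r ∈ A' ∧
        ∀ j, (m j : ℤ) ∣ s j - n - b j) → Fr A) : Step μ Fr' Fr := by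
  intro ν h0 hν
  obtain ⟨Q₀, hQ₀⟩ := exists_nat_ge (3 / (μ - ν))
  refine ⟨Q₀ + 1, fun d Q N hd hQ hN A' hA' hFr => ?_⟩
  obtain ⟨m, hc, hm⟩ := exists_moduli d Q (by omega)
  choose S hS1 hS2 using fun j => hB (m j) (hm j).1
  have hpos : ∀ j, 0 < m j := fun j => (hm j).1.pos
  have hM : 0 < rng d Q := by
    have : 0 < Q := by omega
    unfold rng
    positivity
  obtain ⟨r, b, A, h1, h2, h3⟩ := core m hpos S (fun j => hS _ _ (hS1 j))
    (fun s => ∑ j, g (m j) (s j)) (rng d Q) hM (fun s hs => by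
      have h1 := fun j => hg (m j) (s j) (hS _ _ (hS1 j) _ (Fintype.mem_piFinset.1 hs j))
      refine ⟨sum_nonneg fun j _ => (h1 j).1, ?_⟩
      have : Nonempty (Fin d) := ⟨⟨0, hd⟩⟩
      calc ∑ j, g (m j) (s j) < ∑ _j : Fin d, 2 * ((Q * (2 * (d + 2) ^ 2) : ℕ) : ℤ) ^ 2 := by
            refine sum_lt_sum_of_nonempty univ_nonempty fun j _ => (h1 j).2.trans_le ?_
            have : (m j : ℤ) ≤ ((Q * (2 * (d + 2) ^ 2) : ℕ) : ℤ) := by exact_mod_cast (hm j).2.2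
            gcongr
        _ = _ := by simp [rng]; ring) A' hA' N h0.le (fun j => by
      have h1 : (Q₀ : ℝ) ≤ m j := by exact_mod_cast (by have := (hm j).2.1; omega : Q₀ ≤ m j)
      have h2 := hS2 j
      rw [div_le_iff₀ (sub_pos.2 hν)] at hQ₀
      nlinarith [sub_pos.2 hν])
  refine ⟨A, h1, hF d m S A' A r b (fun j => (hm j).1) hS1 hFr (fun x hx y hy h => ?_) h2, h3⟩
  refine eq_of_dvd hc (hN.trans ?_) (h1 hx) (h1 hy) h
  simpa using prod_le_prod (s := univ) (f := fun _ : Fin d => Q) (fun _ _ => Nat.zero_le _)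
    fun j _ => (hm j).2.1

theorem step_poly {μ : ℝ} {k D : ℕ} (hk : 2 * D < k)
    (hB : ∀ m, Odd m → ∃ S, Blk k D m S ∧ μ * m - 3 ≤ S.card) :
    Step μ (Free k (2 * D)) (Free k D) := by
  refine step_gen (Blk k D) (fun _ s => s ^ 2) hB (fun m S h => h.1) (fun m s h => ?_) ?_
  · refine ⟨sq_nonneg _, ?_⟩
    rw [← sq_abs]
    nlinarith [abs_nonneg s]
  · intro d m S A' A r b _ hS hFr hinj hA a ha hp i hi
    choose! s hs1 hs2 hs3 using fun i (hi : i < k) => hA (a i) (ha i hi)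
    have h1 : ∀ j, IsPoly k D fun i => s i j := fun j =>
      (hS j).2 _ (fun i hi => hs1 i hi j) (dvd_dd hp fun i hi => hs3 i hi j)
    choose P hP1 hP2 using fun j => exists_poly (h1 j)
    have h2 : IsPoly k (2 * D) fun i => ∑ j, s i j ^ 2 - r := by
      refine isPoly_of_poly (P := ∑ j, P j ^ 2 - C (r : ℝ)) ?_ fun i hi => ?_
      · refine (natDegree_sub_le _ _).trans (max_le ?_ (by simp))
        refine natDegree_sum_le_of_forall_le _ _ fun j _ => ?_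
        exact natDegree_pow_le.trans (Nat.mul_le_mul_left 2 (hP1 j))
      · simp [eval_finsetSum, hP2 _ i hi]
    have h3 := hFr _ hs2 h2
    have h0 : 0 < k := by omega
    have h4 := const_of_sum_sq hk P hP1 ((∑ j, s 0 j ^ 2 : ℤ) : ℝ) fun i hi => by
      have h5 : ∑ j, s i j ^ 2 = ∑ j, s 0 j ^ 2 := by
        have := h3 i hi
        linarith
      rw [← h5]
      simp [hP2 _ i hi]
    refine hinj _ (ha i hi) _ (ha 0 h0) fun j => ?_
    have h5 : s i j = s 0 j := by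
      have := h4 j (i : ℕ) ((0 : ℕ) : ℝ)
      rw [← hP2 j i hi, ← hP2 j 0 h0] at this
      exact_mod_cast this
    have h6 := dvd_sub (hs3 0 h0 j) (hs3 i hi j)
    rw [h5] at h6
    simpa using h6

theorem four_ineq {m : ℕ} (hm : Odd m) {a b c d : ℤ} (ha : a ∈ nine m) (hb : b ∈ nine m)
    (hc : c ∈ nine m) (hd : d ∈ nine m) (h1 : (m : ℤ) ∣ a - 2 * b + c)
    (h2 : (m : ℤ) ∣ b - 2 * c + d) {Φ : ℤ} (hΦ : Φ = (a ^ 2 + a % 2 * m ^ 2) -
      (b ^ 2 + b % 2 * m ^ 2) - (c ^ 2 + c % 2 * m ^ 2) + (d ^ 2 + d % 2 * m ^ 2)) :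
    0 ≤ Φ ∧ (Φ = 0 → b = a ∧ c = a ∧ d = a) := by
  rcases nine_four hm ha hb hc hd h1 h2 with ⟨h3, h4⟩ | ⟨h3, h4, h5, h6⟩
  · have h5 : c % 2 = a % 2 := by omega
    have h6 : d % 2 = b % 2 := by omega
    rw [h5, h6] at hΦ
    obtain rfl : c = 2 * b - a := by omega
    obtain rfl : d = 3 * b - 2 * a := by omega
    have h7 : Φ = 4 * (b - a) ^ 2 := by rw [hΦ]; ring
    refine ⟨by rw [h7]; positivity, fun h => ?_⟩
    have h8 : b - a = 0 := pow_eq_zero_iff two_ne_zero |>.1 (by linarith)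
    omega
  · rw [h3, h4, h5, h6] at hΦ
    have h7 := nine_abs hb
    have h8 := nine_abs hc
    have h9 : 0 < Φ := by
      rw [hΦ, ← sq_abs b, ← sq_abs c]
      nlinarith [abs_nonneg b, abs_nonneg c, sq_nonneg a, sq_nonneg d]
    exact ⟨h9.le, fun h => absurd h h9.ne'⟩

theorem step_four : Step (5 / 9) (fun A => A.card ≤ 1) (Free 4 1) := by
  refine step_gen (fun m S => S = nine m) (fun m s => s ^ 2 + s % 2 * m ^ 2)
    (fun m hm => ⟨_, rfl, card_nine m hm.pos⟩) (fun m S h s hs => nine_abs (h ▸ hs))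
    (fun m s h => ?_) ?_
  · have h1 : s % 2 = 0 ∨ s % 2 = 1 := by omega
    rw [← sq_abs]
    rcases h1 with h1 | h1 <;> rw [h1] <;> constructor <;> nlinarith [abs_nonneg s]
  · intro d m S A' A r b hm hS hFr hinj hA a ha hp i hi
    choose! s hs1 hs2 hs3 using fun i (hi : i < 4) => hA (a i) (ha i hi)
    have key := fun j => four_ineq (hm j) (hS j ▸ hs1 0 (by omega) j) (hS j ▸ hs1 1 (by omega) j)
      (hS j ▸ hs1 2 (by omega) j) (hS j ▸ hs1 3 (by omega) j)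
      (by simpa only [dd_two] using
        (show (m j : ℤ) ∣ dd 2 (fun i => s i j) 0 from
          dvd_dd hp (fun i hi => hs3 i hi j) 0 (by omega)))
      (by simpa only [dd_two] using
        (show (m j : ℤ) ∣ dd 2 (fun i => s i j) 1 from
          dvd_dd hp (fun i hi => hs3 i hi j) 1 (by omega))) rfl
    have e1 := card_le_one.1 hFr _ (hs2 1 (by omega)) _ (hs2 0 (by omega))
    have e2 := card_le_one.1 hFr _ (hs2 2 (by omega)) _ (hs2 3 (by omega))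
    have h0 := (sum_eq_zero_iff_of_nonneg fun j (_ : j ∈ univ) => (key j).1).1 (by
      rw [sum_add_distrib, sum_sub_distrib, sum_sub_distrib]
      linarith)
    refine hinj _ (ha i hi) _ (ha 0 (by omega)) fun j => ?_
    have h4 := (key j).2 (h0 j (mem_univ j))
    have h5 : s i j = s 0 j := by
      interval_cases i
      · rfl
      · exact h4.1
      · exact h4.2.1
      · exact h4.2.2
    have h6 := dvd_sub (hs3 0 (by omega) j) (hs3 i hi j)
    rw [h5] at h6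
    simpa using h6

end Vale.Agent.P057
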