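import Mathlib

/-! P057: finite differences, polynomial progressions and blocks of residues. -/

namespace Vale.Agent.P057

open Finset Polynomial

/-- The `n`-th finite difference of `a` at `i`. -/
def dd (n : ℕ) (a : ℕ → ℤ) (i : ℕ) : ℤ :=
  ∑ r ∈ range (n + 1), ((-1) ^ (n - r) * n.choose r) * a (i + r)

/-- The first `k` terms of `a` form a polynomial progression of degree at most `D`. -/
def IsPoly (k D : ℕ) (a : ℕ → ℤ) : Prop := ∀ i, i + (D + 1) < k → dd (D + 1) a i = 0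

/-- `A` has no nonconstant `k`-term polynomial progression of degree at most `D`. -/
def Free (k D : ℕ) (A : Finset ℤ) : Prop :=
  ∀ a : ℕ → ℤ, (∀ i < k, a i ∈ A) → IsPoly k D a → ∀ i < k, a i = a 0

theorem sum_eval_zero {P : ℝ[X]} {n : ℕ} (h : P.natDegree < n) (i : ℕ) :
    ∑ r ∈ range (n + 1), ((-1 : ℝ) ^ (n - r) * n.choose r) * P.eval ((i + r : ℕ) : ℝ) = 0 := by
  have h1 := congrFun (Polynomial.fwdDiff_iter_eq_zero_of_degree_lt h) (i : ℝ)
  rw [fwdDiff_iter_eq_sum_shift] at h1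
  simpa using h1

theorem isPoly_of_poly {k D : ℕ} {a : ℕ → ℤ} {P : ℝ[X]} (hP : P.natDegree ≤ D)
    (h : ∀ i < k, (a i : ℝ) = P.eval (i : ℝ)) : IsPoly k D a := by
  intro i hi
  have h1 := sum_eval_zero (Nat.lt_succ_of_le hP) i
  have h2 : ((dd (D + 1) a i : ℤ) : ℝ) = 0 := by
    rw [← h1, dd]
    push_cast
    refine sum_congr rfl fun r hr => ?_
    rw [h _ (by have := mem_range.1 hr; omega)]
    push_cast
    rfl
  exact_mod_cast h2

theorem exists_poly {k D : ℕ} {a : ℕ → ℤ} (h : IsPoly k D a) :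
    ∃ P : ℝ[X], P.natDegree ≤ D ∧ ∀ i < k, (a i : ℝ) = P.eval (i : ℝ) := by
  have hinj : Set.InjOn (fun i : ℕ => (i : ℝ)) (range (D + 1) : Finset ℕ) :=
    fun x _ y _ hxy => Nat.cast_injective (R := ℝ) hxy
  set P := Lagrange.interpolate (range (D + 1)) (fun i : ℕ => (i : ℝ)) fun i => (a i : ℝ)
  have hdeg : P.natDegree ≤ D := by
    have h1 := Lagrange.degree_interpolate_lt (fun i => (a i : ℝ)) hinj
    rw [card_range] at h1
    by_cases h0 : P = 0
    · simp [h0]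
    · exact Nat.lt_succ_iff.1 ((natDegree_lt_iff_degree_lt h0).2 h1)
  refine ⟨P, hdeg, fun i => ?_⟩
  induction i using Nat.strong_induction_on with
  | _ i ih =>
    intro hi
    by_cases hD : i < D + 1
    · exact (Lagrange.eval_interpolate_at_node (fun i => (a i : ℝ)) hinj (mem_range.2 hD)).symm
    · obtain ⟨j, rfl⟩ : ∃ j, i = j + (D + 1) := ⟨i - (D + 1), by omega⟩
      have h1 := sum_eval_zero (Nat.lt_succ_of_le hdeg) j
      have h2 : ((dd (D + 1) a j : ℤ) : ℝ) = 0 := by exact_mod_cast h j hi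
      rw [dd] at h2
      push_cast at h2
      rw [sum_range_succ] at h1 h2
      have h3 : ∑ r ∈ range (D + 1), ((-1 : ℝ) ^ (D + 1 - r) * (D + 1).choose r) * (a (j + r) : ℝ) =
          ∑ r ∈ range (D + 1), ((-1 : ℝ) ^ (D + 1 - r) * (D + 1).choose r) *
            P.eval ((j + r : ℕ) : ℝ) := by
        refine sum_congr rfl fun r hr => ?_
        have := mem_range.1 hr
        rw [ih (j + r) (by omega) (by omega)]
      simp only [Nat.succ_eq_add_one, Nat.sub_self, pow_zero, Nat.choose_self, Nat.cast_one,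
        mul_one, one_mul] at h1 h2
      rw [h3] at h2
      linarith

theorem dd_const (n : ℕ) (c : ℤ) (i : ℕ) : dd (n + 1) (fun _ => c) i = 0 :=
  isPoly_of_poly (k := i + (n + 1) + 1) (P := C (c : ℝ)) (by simp) (fun _ _ => by simp) i
    (by omega)

theorem dvd_dd {k D : ℕ} {a s : ℕ → ℤ} {m b : ℤ} (ha : IsPoly k D a)
    (h : ∀ i < k, m ∣ s i - a i - b) (i : ℕ) (hi : i + (D + 1) < k) : m ∣ dd (D + 1) s i := by
  have h1 : dd (D + 1) s i = dd (D + 1) (fun i => s i - a i - b) i + dd (D + 1) a i +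
      dd (D + 1) (fun _ => b) i := by
    simp only [dd, ← sum_add_distrib]
    exact sum_congr rfl fun r _ => by ring
  rw [h1, ha i hi, dd_const, add_zero, add_zero, dd]
  exact dvd_sum fun r hr => Dvd.dvd.mul_left (h _ (by have := mem_range.1 hr; omega)) _

theorem abs_dd_le {n i : ℕ} {s : ℕ → ℤ} {R : ℤ} (h : ∀ r ≤ n, |s (i + r)| ≤ R) :
    |dd n s i| ≤ 2 ^ n * R := by
  refine (abs_sum_le_sum_abs _ _).trans ?_
  have h1 : ∑ r ∈ range (n + 1), (n.choose r : ℤ) = 2 ^ n := by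
    exact_mod_cast Nat.sum_range_choose n
  rw [← h1, sum_mul]
  refine sum_le_sum fun r hr => ?_
  rw [abs_mul, abs_mul, abs_pow, abs_neg, abs_one, one_pow, one_mul, Nat.abs_cast]
  exact mul_le_mul_of_nonneg_left (h r (Nat.lt_succ_iff.1 (mem_range.1 hr))) (Nat.cast_nonneg _)

theorem dd_two (s : ℕ → ℤ) (i : ℕ) : dd 2 s i = s i - 2 * s (i + 1) + s (i + 2) := by
  simp [dd, sum_range_succ]
  ring

/-- A sum of squares of polynomial progressions that is constant has constant terms. -/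
theorem const_of_sum_sq {ι : Type} [Fintype ι] {k D : ℕ} (hk : 2 * D < k) (P : ι → ℝ[X])
    (hP : ∀ j, (P j).natDegree ≤ D) (c : ℝ) (h : ∀ i < k, ∑ j, (P j).eval (i : ℝ) ^ 2 = c)
    (j : ι) (x y : ℝ) : (P j).eval x = (P j).eval y := by
  have hz : ∑ j, P j ^ 2 - C c = 0 := by
    refine Polynomial.eq_zero_of_natDegree_lt_card_of_eval_eq_zero' _
      ((range k).image fun i : ℕ => (i : ℝ)) (fun x hx => ?_) ?_
    · obtain ⟨i, hi, rfl⟩ := mem_image.1 hx
      simp [eval_finsetSum, h i (mem_range.1 hi)]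
    · rw [card_image_of_injective _ Nat.cast_injective, card_range]
      refine lt_of_le_of_lt ?_ hk
      refine (natDegree_sub_le _ _).trans (max_le ?_ (by simp))
      refine natDegree_sum_le_of_forall_le _ _ fun j _ => ?_
      exact natDegree_pow_le.trans (Nat.mul_le_mul_left 2 (hP j))
  have hb : ∀ z : ℝ, |(P j).eval z| ≤ 1 + c := fun z => by
    have h1 := congrArg (eval z) hz
    simp only [eval_sub, eval_finsetSum, eval_pow, eval_C, eval_zero] at h1
    have h2 : (P j).eval z ^ 2 ≤ ∑ j, (P j).eval z ^ 2 :=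
      single_le_sum (f := fun j => (P j).eval z ^ 2) (fun _ _ => sq_nonneg _) (mem_univ j)
    have h3 := sq_abs ((P j).eval z)
    nlinarith [abs_nonneg ((P j).eval z)]
  have hd : (P j).degree ≤ 0 :=
    (Polynomial.isBoundedUnder_abs_atTop_iff _).1
      ⟨1 + c, Filter.eventually_map.2 (Filter.Eventually.of_forall hb)⟩
  rw [eq_C_of_degree_le_zero hd, eval_C, eval_C]

/-- A block: progressions modulo `m` inside `S` are progressions in the integers. -/
def Blk (k D m : ℕ) (S : Finset ℤ) : Prop :=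
  (∀ s ∈ S, 2 * |s| < m) ∧ ∀ s : ℕ → ℤ, (∀ i < k, s i ∈ S) →
    (∀ i, i + (D + 1) < k → (m : ℤ) ∣ dd (D + 1) s i) → IsPoly k D s

theorem blk_box (k D m : ℕ) (hm : 0 < m) :
    ∃ S, Blk k D m S ∧ (1 / 2 : ℝ) ^ D * m - 3 ≤ S.card := by
  set R : ℕ := (m - 1) / 2 ^ (D + 1) with hR
  have hpos : 0 < 2 ^ (D + 1) := by positivity
  have h1 : 2 ^ (D + 1) * R < m := lt_of_le_of_lt (Nat.mul_div_le _ _) (by omega)
  have h2 : m - 1 < 2 ^ (D + 1) * (R + 1) := Nat.lt_mul_div_succ _ hpos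
  have h1' : (2 : ℤ) ^ (D + 1) * R < m := by exact_mod_cast h1
  refine ⟨Icc (-(R : ℤ)) R, ⟨fun s hs => ?_, fun s hs hd i hi => ?_⟩, ?_⟩
  · have h3 : |s| ≤ R := abs_le.2 (mem_Icc.1 hs)
    have h4 : (1 : ℤ) ≤ 2 ^ D := one_le_pow₀ (by norm_num)
    rw [pow_succ] at h1'
    nlinarith [abs_nonneg s]
  · refine Int.eq_zero_of_abs_lt_dvd (hd i hi) (lt_of_le_of_lt (abs_dd_le fun r hr => ?_) h1')
    exact abs_le.2 (mem_Icc.1 (hs _ (by omega)))
  · have h3 : (Icc (-(R : ℤ)) R).card = 2 * R + 1 := by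
      rw [Int.card_Icc]; omega
    have h4 : (m : ℝ) ≤ 2 ^ (D + 1) * (R + 1) := by
      have : m ≤ 2 ^ (D + 1) * (R + 1) := by omega
      exact_mod_cast this
    rw [h3]
    push_cast
    have h5 : (1 / 2 : ℝ) ^ D * 2 ^ D = 1 := by rw [← mul_pow]; norm_num
    have h6 : (0 : ℝ) < (1 / 2) ^ D := by positivity
    have h7 := mul_le_mul_of_nonneg_left h4 h6.le
    rw [pow_succ, ← mul_assoc, ← mul_assoc, h5] at h7
    linarith

/-- The block of density `5 / 9`. -/
noncomputable def nine (m : ℕ) : Finset ℤ :=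
  (Icc (-(m : ℤ)) m).filter fun s => (s % 2 = 0 ∧ 3 * |s| < m) ∨ (s % 2 = 1 ∧ 9 * |s| < 2 * m)

theorem mem_nine {m : ℕ} {s : ℤ} (h : s ∈ nine m) :
    (s % 2 = 0 ∧ 3 * s < m ∧ -3 * s < m) ∨ (s % 2 = 1 ∧ 9 * s < 2 * m ∧ -9 * s < 2 * m) := by
  have h1 := (mem_filter.1 h).2
  rcases abs_cases s with h2 | h2 <;> omega

theorem three_of_dvd {m x : ℤ} (h : m ∣ x) (h1 : x < 2 * m) (h2 : -x < 2 * m) :
    x = 0 ∨ x = m ∨ x = -m := by
  obtain ⟨c, rfl⟩ := h
  have hm : 0 < m := by nlinarith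
  have h3 : c < 2 := by nlinarith
  have h4 : -2 < c := by nlinarith
  interval_cases c <;> simp

theorem nine_four {m : ℕ} (hm : Odd m) {a b c d : ℤ} (ha : a ∈ nine m) (hb : b ∈ nine m)
    (hc : c ∈ nine m) (hd : d ∈ nine m) (h1 : (m : ℤ) ∣ a - 2 * b + c)
    (h2 : (m : ℤ) ∣ b - 2 * c + d) :
    (a - 2 * b + c = 0 ∧ b - 2 * c + d = 0) ∨ (a % 2 = 1 ∧ b % 2 = 0 ∧ c % 2 = 0 ∧ d % 2 = 1) := by
  have ha := mem_nine ha
  have hb := mem_nine hb
  have hc := mem_nine hc
  have hd := mem_nine hd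
  have hm' : (m : ℤ) % 2 = 1 := by obtain ⟨t, rfl⟩ := hm; omega
  have h3 := three_of_dvd h1 (by omega) (by omega)
  have h4 := three_of_dvd h2 (by omega) (by omega)
  omega

theorem nine_abs {m : ℕ} {s : ℤ} (h : s ∈ nine m) : 2 * |s| < m := by
  have := mem_nine h
  rcases abs_cases s with h2 | h2 <;> omega

theorem card_nine (m : ℕ) (hm : 0 < m) : (5 / 9 : ℝ) * m - 3 ≤ (nine m).card := by
  set a : ℕ := (m - 1) / 6
  set b : ℕ := (2 * m + 8) / 18
  have hsub : (Icc (-(a : ℤ)) a).image (fun t => 2 * t) ∪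
      (Ico (-(b : ℤ)) b).image (fun t => 2 * t + 1) ⊆ nine m := by
    intro s hs
    rcases mem_union.1 hs with hs | hs
    · obtain ⟨t, ht, rfl⟩ := mem_image.1 hs
      rw [mem_Icc] at ht
      refine mem_filter.2 ⟨mem_Icc.2 (by omega), Or.inl ⟨by omega, ?_⟩⟩
      rcases abs_cases (2 * t) with h2 | h2 <;> omega
    · obtain ⟨t, ht, rfl⟩ := mem_image.1 hs
      rw [mem_Ico] at ht
      refine mem_filter.2 ⟨mem_Icc.2 (by omega), Or.inr ⟨by omega, ?_⟩⟩
      rcases abs_cases (2 * t + 1) with h2 | h2 <;> omega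
  have h1 := card_le_card hsub
  rw [card_union_of_disjoint, card_image_of_injective _ (fun x y h => by simpa using h),
    card_image_of_injective _ (fun x y h => by simpa using h), Int.card_Icc, Int.card_Ico] at h1
  · have h2 : 5 * m ≤ 9 * (nine m).card + 27 := by omega
    have h3 : (5 : ℝ) * m ≤ 9 * (nine m).card + 27 := by exact_mod_cast h2
    linarith
  · rw [disjoint_left]
    intro s h2 h3
    obtain ⟨t, _, rfl⟩ := mem_image.1 h2
    obtain ⟨u, _, hu⟩ := mem_image.1 h3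
    omega

theorem blk_nine {k m : ℕ} (hk : 5 ≤ k) (hm : Odd m) : Blk k 1 m (nine m) := by
  refine ⟨fun s => nine_abs, fun s hs hd => ?_⟩
  have key : ∀ i, i + 4 < k → dd 2 s i = 0 ∧ dd 2 s (i + 1) = 0 ∧ dd 2 s (i + 2) = 0 := by
    intro i hi
    have d0 : (m : ℤ) ∣ dd 2 s i := hd i (by omega)
    have d1 : (m : ℤ) ∣ dd 2 s (i + 1) := hd (i + 1) (by omega)
    have d2 : (m : ℤ) ∣ dd 2 s (i + 2) := hd (i + 2) (by omega)
    simp only [dd_two] at d0 d1 d2 ⊢
    have e1 := nine_four hm (hs i (by omega)) (hs (i + 1) (by omega)) (hs (i + 2) (by omega))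
      (hs (i + 3) (by omega)) d0 d1
    have e2 := nine_four hm (hs (i + 1) (by omega)) (hs (i + 2) (by omega))
      (hs (i + 3) (by omega)) (hs (i + 4) (by omega)) d1 d2
    simp only [add_assoc, Nat.reduceAdd] at *
    omega
  intro i hi
  by_cases h : i + 4 < k
  · exact (key i h).1
  · obtain ⟨j, rfl⟩ : ∃ j, k = j + 5 := ⟨k - 5, by omega⟩
    have h1 := key j (by omega)
    rcases (show i = j + 1 ∨ i = j + 2 by omega) with rfl | rfl
    · exact h1.2.1
    · exact h1.2.2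

end Vale.Agent.P057
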